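import Crest.Agent.N255.Ma.Vd
import Crest.Agent.N255.Io.Adm
import Crest.Agent.N255.Jt.Bs
import Crest.Agent.N255.Lp.Cmp

/-!
# Row 255 (helper11): the fields `hy` and `adm` at a vertex, linear parts of the nonlinear terms
-/

set_option autoImplicit false
open Set Module Sum

noncomputable section

namespace Crest.Agent.N255.Ma
open Tp Nv Pt Lv En Wn Le Cs Cs.Tw Ku Lp Jt Io _root_.N255.Dr _root_.N255.Dr.O
open _root_.N255.Core (Wall)

variable {F : Subgroup F3} {S : Type} [MulAction F3 S] {X : Type} [TopologicalSpace X]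
  [MulAction F X] [ContinuousConstSMul F X] {p : ℕ} [Fact p.Prime]
  {g : Geo F (ZMod p) S X} {u R₀ : ℝ} {n : ℕ}

/-- the nonlinear term of a wall has only `y`, `w` in its linear part -/
theorem Wd.nl_Jl {J : Type} [Fintype J] {τ : Ty J} {e' : Ed (Fin 3)} {o : Bool}
    (ω : Wd g u R₀ n τ e' o) (σ : Sx 2 X) :
    In (Jl p (ZMod p) {x : Uv p J | ∃ c, x.1 = inr c}) (nl (ZMod p) ω.g1 ω.Sr ω.gU σ) := by
  have k : ∀ c, In (Jl p (ZMod p) {x : Uv p J | ∃ c, x.1 = inr c}) (xv p (inr c)) := fun c =>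
    sum_mem fun γ _ => z_Jl ⟨c, rfl⟩
  refine fam_nl (A := src ω.ct fun j => xv p (inl j)) ω.fam le_sup_right (fun e => ?_)
    (fun σ => by rw [cob_src, Wd.Sr, sub_self]; exact Cs.in_zero) σ
  have k' : ∀ c, In (Jl p (ZMod p) {x : Uv p J | ∃ c, x.1 = inr c}) ((uv p (inr c)).val - 1) :=
    fun c => In.eq (k c) (uv_sub p _)
  refine In.eq (In.add (In.add ((pow_jet (uv_U p (inr true)) (uv_U p (inr false))
    (g.E.toLev.mz g.M R₀ (me e' o) e) (g.E.toLev.mz g.M R₀ (rev (me e' o)) e)).mono le_sup_right)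
    (In.add (In.zsmul (k' true) (g.E.toLev.mz g.M R₀ (me e' o) e))
      (In.zsmul (k' false) (g.E.toLev.mz g.M R₀ (rev (me e' o)) e))))
    (In.sum fun c (_ : c ∈ Finset.univ) => in_smul (ω.cx (inr c) e) (k c))) ?_
  rw [show Cs.dif ω.g1 1 = Cs.dif (ω.g0 (uv p (inr true)) (uv p (inr false))) 1 +
    Lp.src ω.cx (xv p) from dif_pl_one, sub_add_cancel]
  simp only [Lp.src, Pi.add_apply, Pi.sub_apply, Fintype.sum_sum_type, dif_one, Wd.g0]
  change _ + (∑ j, ω.ct j e • _ + _) - _ = _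
  abel

variable {J : Fin 3 → Type} [∀ i, Fintype (J i)] {τ : ∀ i, Ty (J i)} {v : F3} {h o : Fin 3 → Bool}

theorem xV_YW (i : Fin 3) (c : Bool) : In (Jl p (ZMod p) (YW2 p J)) (xV p ⟨i, inr c⟩) :=
  sum_mem fun _ _ => z_Jl ⟨c, rfl⟩

namespace Vd
variable (D : Vd g u R₀ n τ v h o)

theorem la_mm (i : Fin 3) : In (mx * mx) (D.la i) := D.V0.la_in (G2_mx p J) (xM_U p o) i

theorem bV_mm (i : Fin 3) : In (mx * mx) ((D.bV i).val - 1 - xV p ⟨i, inr false⟩) := by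
  unfold bV
  split_ifs
  · exact In.eq (D.la_mm i) (by rw [val_un]; abel)
  · rw [uV_sub, sub_self]; exact Cs.in_zero

theorem xG_mm (q : Cl3 J) : In (mx * mx) (D.xG q - xV p q) := by
  obtain ⟨i, j | _ | _⟩ := q
  exacts [In.eq Cs.in_zero (sub_self _), D.bV_mm i, In.eq Cs.in_zero (sub_self _)]

theorem bV_YW (i : Fin 3) : In (Jl p (ZMod p) (YW2 p J)) ((D.bV i).val - 1) :=
  In.eq (In.add ((D.bV_mm i).mono le_sup_right) (xV_YW i false)) (sub_add_cancel _ _).symm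

theorem tf0 {i : Fin 3} {j : J i} {q : Cl3 J} (e : D.lin.lx i j q ≠ 0) : Tf0 τ i j q :=
  let ⟨_, _, h0, h1⟩ := D.lin.tf i j q e
  ⟨h0, h1.imp (fun ⟨j', a, _, _, b⟩ => ⟨j', a, b⟩) fun a => ⟨_, a.1⟩⟩

/-- the nonlinear term of the vertex has only `y`, `w` in its linear part -/
theorem nl_Jl (σ : Sx 2 X) : In (Jl p (ZMod p) (YW2 p J)) (nl (ZMod p) D.G1 D.SG D.GV σ) := by
  have hC : Pairwise fun i j => Disjoint (D.C i) (D.C j) := fun i j e =>
    Set.disjoint_left.2 fun x hx => Vl.hi_compl e (D.c_pos i).le (D.c_pos j).le hx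
  have k0 := bs_in (V := D.V0) (hn := Tg.mx_nil) (hx := xM_U p o) (a := aV p J) (b := D.bV)
    (ε := fun _ => 0) (J := Jl p (ZMod p) (YW2 p J)) le_sup_right hC (fun _ => uV_U p _) D.bV_U
    (fun i => In.eq (xV_YW i _) (uV_sub p _)) (fun i => In.eq (xV_YW i _) (uV_sub p _))
    (fun i => In.eq (D.bV_YW i) (sub_zero _))
  have k1 : ∀ i c, In (Jl p (ZMod p) (YW2 p J)) (D.xG ⟨i, inr c⟩) := by
    rintro i (_ | _)
    exacts [D.bV_YW i, xV_YW i _]
  refine fam_nl (A := Lp.src (fun q : Σ i, J i => D.lin.cG ⟨q.1, inl q.2⟩) fun q => xV p ⟨q.1, inl q.2⟩)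
    D.fam le_sup_right (fun e => ?_) (fun σ => ?_) σ
  · refine In.eq (In.add (k0 e) (In.sum fun i (_ : i ∈ Finset.univ) =>
      In.sum fun c (_ : c ∈ Finset.univ) => in_smul (D.lin.cG ⟨i, inr c⟩ e) (k1 i c))) ?_
    rw [G1, dif_pl_one]
    simp only [Lp.src, Pi.add_apply, Pi.sub_apply, Fintype.sum_sigma, Fintype.sum_sum_type,
      Finset.sum_add_distrib, smul_zero, Finset.sum_const_zero, sub_zero]
    change _ + (∑ i, ∑ j, D.lin.cG ⟨i, inl j⟩ e • xV p ⟨i, inl j⟩ + _) - _ = _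
    rw [G0]
    abel
  · refine In.eq (In.sum fun i (_ : i ∈ Finset.univ) => In.sum fun c (_ : c ∈ Finset.univ) =>
      in_smul (D.qa ⟨i, inr c⟩ σ) (xV_YW i c)) ?_
    rw [cob_src, SG]
    simp only [Lp.src, Pi.sub_apply, Fintype.sum_sigma, Fintype.sum_sum_type, Finset.sum_add_distrib,
      D.lin.cob_inl]
    exact add_sub_cancel_left _ _

section io
variable {D} {i : Fin 3} {io : OU p (J i) →ₐ[ZMod p] OV p J} (hom : (GU p (J i)).Hom (G2 p J) io)

theorem map_y (a : um hom (uv p (inr true)) = aV p J i) :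
    Tw.map hom (xv p (inr true)) = xV p ⟨i, inr true⟩ := by
  rw [← uv_sub, map_sub, map_one, ← val_um, a, aV, uV_sub]

theorem map_w (b : um hom (uv p (inr false)) = D.bV i) :
    Tw.map hom (xv p (inr false)) = (D.bV i).val - 1 := by
  rw [← uv_sub, map_sub, map_one, ← val_um, b]

/-- **the field `h1` of `Cmp`** from the defining equation of `io` -/
theorem h1_of (hm : ∀ x, io (z x) ∈ mx) (a : um hom (uv p (inr true)) = aV p J i)
    (b : um hom (uv p (inr false)) = D.bV i) (lam mu : J i → Dual (ZMod p) (Co (ZMod p) 2 X)) (j : J i) :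
    In (Jl p (ZMod p) (YW2 p J)) (dl lam mu
      (mc hom (nl (ZMod p) (D.ω i).g1 (D.ω i).Sr (D.ω i).gU)) (nl (ZMod p) D.G1 D.SG D.GV) j) := by
  refine dl_mem (fun σ => map_YW (G2_z p J) hom hm ?_ ((D.ω i).nl_Jl σ)) D.nl_Jl j
  rintro (_ | _)
  · rw [map_w hom b]; exact D.bV_mm i
  · rw [map_y hom a]; exact In.eq Cs.in_zero (sub_self _)

end io

variable {D} {w : ∀ i, Wall p (Cs.Gm p) (Cs.g0 p) (Uv p (J i))} {c B : ℕ}
  {T : _root_.N255.Wt.Ty w c B} {hc : ∀ i j, (τ i).dp j ≤ c}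

/-- **the field `hy`** -/
theorem Cmp.hy (C : D.Cmp) (hT : ∀ i, T.σ i = (τ i).sg p (hc i)) (i : Fin 3) (x : Uv p (J i))
    (hx : (w i).kd x = none) : C.io i (z x) = z ⟨i, x⟩ :=
  hy_all (G2_z p J) (C.hom i) hT (map_y (C.hom i) (C.a i)) x hx

/-- **the field `adm`** -/
theorem Cmp.adm (C : D.Cmp) (hT : ∀ i, T.σ i = (τ i).sg p (hc i)) (i : Fin 3) (x : Uv p (J i))
    (hx : (w i).kd x ≠ none) : Adm T id i x (C.io i (z x) - z ⟨i, x⟩) :=
  adm_all (d := 2) (G2_z p J) (C.hom i) hT (by have := T.pos; omega) (fun _ _ => D.tf0) D.xG_mm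
    (by rw [map_w (C.hom i) (C.b i)]; exact D.bV_mm i) (C.h1 i) (fun j _ => C.h2 i j) x hx

theorem Cmp.io_mx (C : D.Cmp) (i : Fin 3) (x : Uv p (J i)) : C.io i (z x) ∈ mx := by
  have k : ∀ y, In mx (Tw.map (C.hom i) (xv p y) - xV p ⟨i, y⟩) := by
    rintro (j | _ | _)
    · exact In.eq (In.add ((C.h1 i j).mono Jl_mx)
        (In.sum fun q (_ : q ∈ Finset.univ) => in_smul (D.lin.lx i j q) (D.xG_in q)))
        (sub_add_cancel _ _).symm
    · rw [map_w (C.hom i) (C.b i)]; exact (D.bV_mm i).mono Ideal.mul_le_left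
    · rw [map_y (C.hom i) (C.a i)]; exact In.eq Cs.in_zero (sub_self _)
  simpa using add_mem (cor_mem (G2_z p J) (C.hom i) (G2_mx p J) (k x.1) x.2) (z_mem ⟨i, x⟩)

end Vd

end Crest.Agent.N255.Ma

end
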