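import Crest.Agent.N255.Ma.Vd
import Crest.Agent.N255.Lp.Cmp

/-!
# Row 255 (helper10): the base point and the sources of the vertex family on a wall
-/

set_option autoImplicit false
open Set Sum

noncomputable section

namespace Crest.Agent.N255.Ma
open Tp Nv Pt Lv En Wn Le Cs Cs.Tw _root_.N255.Dr _root_.N255.Dr.O

variable {F : Subgroup F3} {S : Type} [MulAction F3 S] {X : Type} [TopologicalSpace X]
  [MulAction F X] [ContinuousConstSMul F X]

section wall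
variable {k : Type} [Field k] {g : Geo F k S X} {u R₀ : ℝ} {n : ℕ} {J : Type} [Fintype J] {τ : Ty J}
  {e : Ed (Fin 3)} {o : Bool}

/-- a cut class is closed on its big side -/
theorem Wd.cob_ct_B (ω : Wd g u R₀ n τ e o) (j : J) :
    cob k (ω.ct j) ∈ (On (ω.B (τ.kd j == o) (τ.sc j + 1))).van k k 2 :=
  Sb.mem_Z.1 (by simpa [Wd.ct] using add_mem (Sb.van_le_Z (Wv.ct_sub (a := ω.h j))) (ω.mem j).2)

/-- the holonomy class of an `M` slot is closed beyond `a` -/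
theorem Wd.xw_Z_M (ω : Wd g u R₀ n τ e o) (h : o = true) :
    ω.xw ∈ (g.E.toLev.Sb (hi (g.E.s e) ω.a)).Z k k 1 := by
  subst h
  simpa [Wd.xw, Wv.lo_rv] using ω.bz.cl

theorem Wd.Wr_le (ω : Wd g u R₀ n τ e o) : ω.Wr.Le (g.E.toLev.Sb (hi (g.E.s e) (ω.l 2))) :=
  fun _ _ hσ => ⟨hσ.2, hσ.1.2⟩

end wall

namespace Vd

section scalar
variable {J : Fin 3 → Type} [∀ i, Fintype (J i)] {k : Type} [Field k] {g : Geo F k S X} {u R₀ : ℝ}
  {n : ℕ} {τ : ∀ i, Ty (J i)} {v : F3} {h o : Fin 3 → Bool} (D : Vd g u R₀ n τ v h o)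

theorem l_nn (i : Fin 3) (m : ℕ) : 0 ≤ (D.ω i).l m := ((D.ω i).u0.trans (Vl.u_lt _ m)).le

theorem C_dis : Pairwise fun i j => Disjoint (D.C i) (D.C j) := fun _ _ e =>
  disjoint_left.2 (Vl.hi_compl e (D.c_pos _).le (D.c_pos _).le)

theorem hi_C (i : Fin 3) (m : ℕ) : hi (D.s i) ((D.ω i).l m) ⊆ D.C i :=
  hi_mono ((D.cl i).le.trans (Vl.l_le _ m.zero_le))

/-- foreign sources vanish on a wall -/
theorem qa_out {q : Cl3 J} {i : Fin 3} (e : q.1 ≠ i) : D.qa q ∈ (On (hi (D.s i) 0)).van k k 2 := by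
  obtain ⟨i', j | c⟩ := q
  · by_cases a : (τ i').kd j = o i'
    · refine van_mono ?_ ((D.ω i').cob_ct_B j)
      rw [Vl.B_near a]
      exact Vl.hi_lo (Ne.symm e) (by simpa using (Vl.r_pos _ _).le)
    · exact Sb.cob_mem (van_mono (Vl.hi_compl (Ne.symm e) le_rfl (D.l_nn _ 0))
        (Vl.ct_far a (Nat.zero_le _)))
  · refine Sb.cob_mem (?_ : D.pq ⟨i', inr c⟩ ∈ _)
    simp only [pq, elim_inr]
    split_ifs
    · exact van_mono (Vl.hi_compl (Ne.symm e) le_rfl (D.c_pos _).le) Wv.ct_van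
    · exact zero_mem _

/-- the source of the holonomy vanishes beyond the cut -/
theorem qa_w (i : Fin 3) (c : Bool) : D.qa ⟨i, inr c⟩ ∈ (g.E.toLev.Sb (D.C i)).van k k 2 := by
  refine Sb.mem_Z.1 (?_ : D.pq ⟨i, inr c⟩ ∈ _)
  simp only [pq, elim_inr]
  split_ifs with a
  · simpa [ew] using add_mem (Sb.van_le_Z (Sb.van_mono Sb.inf_le_left
      (Wv.ct_sub (C := D.C i) (a := (D.ω i).xw)))) (Sb.Z_mono
        (SB_mono (hi_mono (D.ac i).le)) ((D.ω i).xw_Z_M a.2))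
  · exact zero_mem _

theorem lx_own (i : Fin 3) (j : J i) (x : J i ⊕ Bool) : D.lin.lx i j ⟨i, x⟩ = 0 :=
  by_contra fun a => (D.lin.tf i j _ a).1 rfl

/-- the targets of the transfer are closed on the wall -/
theorem lx_cob {i : Fin 3} {j : J i} {q : Cl3 J} (a : D.lin.lx i j q ≠ 0) :
    cob k ((D.ω i).ct j) ∈ (On (hi (D.s i) ((D.ω i).l 1))).van k k 2 := by
  obtain ⟨-, a1, a2, -⟩ := D.lin.tf i j q a
  have := (D.ω i).cob_ct_B j
  rwa [Vl.B_far a1, a2] at this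

end scalar

variable {p : ℕ} [Fact p.Prime] {J : Fin 3 → Type} [∀ i, Fintype (J i)]
  {g : Geo F (ZMod p) S X} {u R₀ : ℝ} {n : ℕ} {τ : ∀ i, Ty (J i)} {v : F3}
  {h o : Fin 3 → Bool} (D : Vd g u R₀ n τ v h o) {i : Fin 3}

/-- beyond the cut the base is the base of the wall -/
theorem G0_slot {e : Sx 1 X} (he : range e ⊆ D.C i) : D.G0 e = (D.ω i).g0 (aV p J i) (D.bV i) e :=
  Ms.bs_some (Ms.slv_in D.C_dis he)

/-- the linear part on a wall -/
theorem src_cG {e : Sx 1 X} (he : e ∈ (g.E.toLev.Sb (hi (D.s i) ((D.ω i).l 2))).S 1) :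
    Lp.src D.lin.cG D.xG e = Lp.src (D.ω i).cx (fun x => D.xG ⟨i, x⟩) e +
      Lp.src (D.ω i).ct (D.tf i) e := by
  have e1 : Lp.src (D.ω i).ct (D.tf i) e =
      ∑ q, (∑ j, D.lin.lx i j q • (D.ω i).ct j) e • D.xG q := by
    simp only [Lp.src, tf, Finset.smul_sum, Finset.sum_apply, Finset.sum_smul, Pi.smul_apply,
      smul_eq_mul, smul_smul]
    rw [Finset.sum_comm]
    simp only [mul_comm]
  rw [e1, ← sub_eq_iff_eq_add, Lp.src, ← Finset.sum_sub_distrib, Fintype.sum_sigma,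
    Finset.sum_eq_single i (fun i' _ a => Finset.sum_eq_zero fun x _ => by
      rw [← sub_smul, ← Pi.sub_apply, D.lin.agr i ⟨i', x⟩ a e he, zero_smul]) (by simp), Lp.src]
  refine Finset.sum_congr rfl fun x _ => ?_
  have := D.lin.own i x e (he.1.trans (D.hi_C i 2))
  rw [Pi.sub_apply, sub_eq_zero] at this
  simp [lx_own, this]

/-- the sources on a wall -/
theorem SG_wall {σ : Sx 2 X} (hσ : σ ∈ (g.E.toLev.Sb (D.C i)).S 2) :
    D.SG σ = Lp.src (fun j => cob (ZMod p) ((D.ω i).ct j)) (fun j => xV p ⟨i, inl j⟩) σ := by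
  rw [SG, Lp.src, Fintype.sum_sigma, Finset.sum_eq_single i (fun i' _ a =>
    Finset.sum_eq_zero fun x _ => by
      rw [D.qa_out (q := ⟨i', x⟩) a σ (hσ.1.trans (hi_mono (D.c_pos i).le)), zero_smul]) (by simp),
    Fintype.sum_sum_type, Finset.sum_eq_zero (s := Finset.univ) fun (c : Bool) _ => by
      rw [D.qa_w i c σ hσ, zero_smul], add_zero]
  rfl

theorem cob_tf {σ : Sx 2 X} (hσ : range σ ⊆ hi (D.s i) ((D.ω i).l 1)) :
    Lp.src (fun j => cob (ZMod p) ((D.ω i).ct j)) (D.tf i) σ = 0 :=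
  Finset.sum_eq_zero fun j _ => by
    rw [tf, Finset.smul_sum]
    refine Finset.sum_eq_zero fun q _ => ?_
    by_cases a : D.lin.lx i j q = 0
    · rw [a, zero_smul, smul_zero]
    · exact smul_eq_zero_of_left (D.lx_cob a σ hσ) _

variable {io : OU p (J i) →ₐ[ZMod p] OV p J} (hom : (GU p (J i)).Hom (G2 p J) io)
  (ha : um hom (uv p (inr true)) = aV p J i) (hb : um hom (uv p (inr false)) = D.bV i)
include ha hb

/-- **the base points on a wall** -/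
theorem G1_sb {e : Sx 1 X} (he : e ∈ (g.E.toLev.Sb (hi (D.s i) ((D.ω i).l 2))).S 1) :
    Cs.dif D.G1 (mp hom (D.ω i).g1) e = Lp.src (D.ω i).ct
      (fun j => xV p ⟨i, inl j⟩ + D.tf i j - Tw.map hom (xv p (inl j))) e := by
  have e1 : Tw.map hom ((D.ω i).g0 (uv p (inr true)) (uv p (inr false)) e).val =
      ((D.ω i).g0 (aV p J i) (D.bV i) e).val := by
    rw [← val_um, Wd.g0, map_mul, map_zpow, map_zpow, ha, hb, Wd.g0]
  have e2 : Tw.map hom (xv p (inr false)) = (D.bV i).val - 1 := by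
    rw [← uv_sub, map_sub, map_one, ← val_um, hb]
  have e3 : ((D.ω i).g1 e).val = ((D.ω i).g0 (uv p (inr true)) (uv p (inr false)) e).val +
      Lp.src (D.ω i).cx (xv p) e := Lp.val_pl e
  rw [Cs.dif, G1, Lp.val_pl, mp, val_um, e3, map_add, e1, Lp.map_src,
    D.G0_slot (he.1.trans (D.hi_C i 2)), D.src_cG he]
  simp [Lp.src, Fintype.sum_sum_type, Wd.cx, xG, e2, smul_sub, Finset.sum_add_distrib,
    Finset.sum_sub_distrib]
  abel

/-- **the sources on a wall** -/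
theorem SG_sb {σ : Sx 2 X} (hσ : σ ∈ (g.E.toLev.Sb (hi (D.s i) ((D.ω i).l 2))).S 2) :
    (D.SG - Lp.mc hom (D.ω i).Sr - cob (ZMod p) (Cs.dif D.G1 (mp hom (D.ω i).g1))) σ = 0 := by
  have e1 := Sb.cob_mem (k := ZMod p) (P := g.E.toLev.Sb (hi (D.s i) ((D.ω i).l 2)))
    (φ := Cs.dif D.G1 (mp hom (D.ω i).g1) - Lp.src (D.ω i).ct
      (fun j => xV p ⟨i, inl j⟩ + D.tf i j - Tw.map hom (xv p (inl j))))
    (fun e he => sub_eq_zero.2 (D.G1_sb hom ha hb he)) σ hσ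
  have e2 := D.cob_tf (hσ.1.trans (hi_mono (Vl.l_le _ one_le_two)))
  rw [map_sub, Pi.sub_apply, sub_eq_zero, Lp.cob_src] at e1
  rw [Pi.sub_apply, Pi.sub_apply, e1, D.SG_wall ⟨hσ.1.trans (D.hi_C i 2), hσ.2⟩, Lp.mc, Wd.Sr,
    Lp.map_src]
  simp only [Lp.src, smul_sub, smul_add, Finset.sum_add_distrib, Finset.sum_sub_distrib] at e2 ⊢
  rw [e2]; abel

theorem G1_agr : ∀ e ∈ (D.ω i).Wr.S 1, Cs.dif D.G1 (mp hom (D.ω i).g1) e = Lp.src (D.ω i).ct
    (fun j => xV p ⟨i, inl j⟩ + D.tf i j - Tw.map hom (xv p (inl j))) e :=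
  fun _ he => D.G1_sb hom ha hb ((D.ω i).Wr_le 1 he)

theorem SG_agr : ∀ σ ∈ (D.ω i).Wr.S 2,
    (D.SG - Lp.mc hom (D.ω i).Sr - cob (ZMod p) (Cs.dif D.G1 (mp hom (D.ω i).g1))) σ = 0 :=
  fun _ hσ => D.SG_sb hom ha hb ((D.ω i).Wr_le 2 hσ)

end Vd

end Crest.Agent.N255.Ma

end
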