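import Crest.Agent.N255.Vf.Adm
import Crest.Agent.N255.Vf.Agr

/-!
# Row 255 (helper11): the comparison `Cmp` exists
-/

set_option autoImplicit false
open Set Module Sum

noncomputable section

namespace Crest.Agent.N255.Ma.Vd
open Tp Nv Pt Lv En Wn Le Cs Cs.Tw Ku Lp Jt Io _root_.N255.Dr _root_.N255.Dr.O

variable {F : Subgroup F3} {S : Type} [MulAction F3 S] {X : Type} [TopologicalSpace X]
  [MulAction F X] [ContinuousConstSMul F X] {p : ℕ} [Fact p.Prime]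
  {g : Geo F (ZMod p) S X} {u R₀ : ℝ} {n : ℕ}
  {J : Fin 3 → Type} [∀ i, Fintype (J i)] {τ : ∀ i, Ty (J i)} {v : F3} {h o : Fin 3 → Bool}
  (D : Vd g u R₀ n τ v h o)

theorem cmx_le (i : Fin 3) (hn : 2 ≤ n) : ((D.ω i).Zb 2).Le (D.ω i).Wr := fun m _ hσ =>
  ⟨(D.ω i).Zb_anti (Nat.zero_le 2) m hσ,
    let ⟨_, hU, a⟩ := hσ.1
    a.trans ((zs_sub (D.ω i).lr hn hU).trans fun _ hx => hx.1)⟩

/-- the substitution before the correction -/
def cmx_phi (i : Fin 3) : OU p (J i) →ₐ[ZMod p] OV p J :=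
  sub (fun x => (G2 p J).pr x.2 (Tw.o _ (D.xG ⟨i, x.1⟩))) fun _ => G2_mx p J _ _ (D.xG_in _)

theorem cmx_um {i : Fin 3} {io : OU p (J i) →ₐ[ZMod p] OV p J} (hom : (GU p (J i)).Hom (G2 p J) io)
    {x : J i ⊕ Bool} (e : ∀ γ, io (z (x, γ)) = D.cmx_phi i (z (x, γ))) :
    (um hom (uv p x)).val = 1 + D.xG ⟨i, x⟩ := by
  rw [val_um, eq_add_of_sub_eq' (uv_sub p x), map_add, map_one]
  congr 1
  refine (Tw.o _).injective ((G2 p J).ext fun γ => ?_)
  rw [o_map, ← hom, pr_xv, e, cmx_phi, sub_z]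

theorem cmx_slot (i : Fin 3) : ∃ (io : OU p (J i) →ₐ[ZMod p] OV p J)
    (hom : (GU p (J i)).Hom (G2 p J) io), um hom (uv p (inr true)) = aV p J i ∧
      um hom (uv p (inr false)) = D.bV i ∧
      (∀ j, In (Jl p (ZMod p) (YW2 p J))
        (Tw.map hom (xv p (inl j)) - xV p ⟨i, inl j⟩ - D.tf i j)) ∧
      (∀ j, In (mx ^ ((τ i).sc j - 2)) (Tw.map hom (xv p (inl j)) - xV p ⟨i, inl j⟩ - D.tf i j)) ∧
      CI (D.ω i).Pc (mx ^ (n - 2)) (Cs.dif D.GV (mp hom (D.ω i).gU)) := by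
  have sG : ∀ σ, In mx (D.SG σ) := src_in (xV_in p)
  obtain ⟨io, hom, hm, hφ, hd⟩ := exists_io (G := G2 p J) (m := mx) Tg.mx_nil (fun _ => pow_p)
    (GU_z p (J i)) (e := fun q : J i × Cs.Gm p => (inl q.1, q.2)) (fun _ => rfl)
    (fun _ _ e => Prod.ext (inl_injective (Prod.mk.inj e).1) (Prod.mk.inj e).2) (D.cmx_phi i)
    (fun x => by rw [cmx_phi, sub_z]; exact ⟨(G2 p J).hg_pr _ _, G2_mx p J _ _ (D.xG_in _)⟩)
    (fun σ => ((D.ω i).nl_Jl σ).mono (sup_le (le_sup_of_le_right (Ideal.span_mono (image_mono (by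
      rintro ⟨_, γ⟩ ⟨c, rfl⟩ ⟨q, e⟩; cases e)))) le_sup_left))
    (D.fam.nl_in sG) (G2_mx p J) (D.ω i).lam (D.vf.mu i)
    (T := fun j => xV p ⟨i, inl j⟩ + D.tf i j) fun j => In.add (xV_in p _)
      (In.sum fun q (_ : q ∈ Finset.univ) => in_smul _ (D.xG_in q))
  have hc : ∀ c γ, io (z (inr c, γ)) = D.cmx_phi i (z (inr c, γ)) := fun c γ =>
    hφ _ (by rintro ⟨q, e⟩; cases e)
  have ha : um hom (uv p (inr true)) = aV p J i :=
    Units.ext ((D.cmx_um hom (hc true)).trans (eq_add_of_sub_eq' (uV_sub p _)).symm)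
  have hb : um hom (uv p (inr false)) = D.bV i :=
    Units.ext ((D.cmx_um hom (hc false)).trans (add_sub_cancel _ _))
  have e1 : ∀ j, Tw.map hom (xv p (inl j)) - xV p ⟨i, inl j⟩ - D.tf i j = -dl (D.ω i).lam (D.vf.mu i)
      (mc hom (nl (ZMod p) (D.ω i).g1 (D.ω i).Sr (D.ω i).gU)) (nl (ZMod p) D.G1 D.SG D.GV) j :=
    fun j => by rw [← hd j, neg_sub, _root_.sub_sub]; rfl
  have FU := (D.ω i).fam.map (hm' := G2_mx p J) hom fun _ => map_mx io hm
  have hS : ∀ hn : 2 ≤ n, CI ((D.ω i).Zb 2) ⊥ (D.SG - mc hom (D.ω i).Sr -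
      cob (ZMod p) (Cs.dif D.G1 (mp hom (D.ω i).g1))) := fun hn σ hσ =>
    in_bot.2 (D.SG_agr hom ha hb σ (D.cmx_le i hn 2 hσ))
  have cm : ∀ k, 2 + k ≤ n → CI ((D.ω i).Zb (2 + k)) (mx ^ (k + 1))
      (Cs.dif D.GV (mp hom (D.ω i).gU)) := fun k hk => by
    have hn : 2 ≤ n := by omega
    have := Fam.cmp_hp (H := (D.ω i).H) (lam := (D.ω i).lam) (ct := (D.ω i).ct) (mu := D.vf.mu i) FU
      D.fam Tg.mx_nil (fun σ => in_map hom (fun _ => map_mx io hm)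
        (src_in (fun _ => xv_in p _) σ)) sG (G2 p J).id_bot (Z := (D.ω i).Zb)
      (fun k => (D.ω i).Zb_anti k.le_succ) (a := 2) (b := n)
      (fun f => Sb.van_mono (D.cmx_le i hn) (D.vf.agr i f))
      (fun k _ hk f hf => (((D.ω i).nf.fl2 k hk f hf).1)) (fun e he => in_bot.2 (by
        rw [Pi.sub_apply, D.G1_agr hom ha hb e (D.cmx_le i hn 1 he), ← mc_nl, sub_eq_zero]
        exact congrArg (fun t => Lp.src (D.ω i).ct t e) (funext hd))) (hS hn) hk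
    rwa [bot_sup_eq] at this
  refine ⟨io, hom, ha, hb, fun j => e1 j ▸ In.neg (h1_of hom hm ha hb _ _ j), fun j => ?_, ?_⟩
  · by_cases hj : (τ i).sc j < 2
    · rw [Nat.sub_eq_zero_of_le hj.le, pow_zero, Ideal.one_eq_top]; trivial
    · obtain ⟨k, hk⟩ := Nat.exists_eq_add_of_le (not_lt.1 hj)
      have hn := (D.ω i).sc_lt j
      have := dl_in (lam := (D.ω i).lam) (mu := D.vf.mu i) (j := j) ((G2_mx p J).pow (k + 1))
        (FU.cu _) (D.fam.cu _) (cm k (by omega))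
        (ci_le (hS (by omega)) ((D.ω i).Zb_anti (Nat.le_add_right 2 k)))
        (by by_contra a; have := (D.vf.mu0 i j a).2; omega)
        fun f hf => ((D.ω i).nf.fl2 (2 + k) (by omega) f hf).2 j hk.ge
      rw [bot_sup_eq, ← pow_succ', ← mc_nl] at this
      exact e1 j ▸ In.neg (this.mono (Ideal.pow_le_pow_right (by omega)))
  · by_cases hn : n < 2
    · rw [Nat.sub_eq_zero_of_le hn.le, pow_zero, Ideal.one_eq_top]; exact fun _ _ => trivial
    · exact ci_mono (ci_le (cm (n - 2) (by omega)) ((D.ω i).Pc_le _))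
        (Ideal.pow_le_pow_right (by omega))

/-- **the comparison exists** -/
theorem nonempty_cmp : Nonempty D.Cmp := by
  choose io hom a b h1 h2 cmp using D.cmx_slot
  exact ⟨⟨io, hom, a, b, h1, h2, cmp⟩⟩

end Crest.Agent.N255.Ma.Vd

end
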