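import Crest.Agent.N255.Ma.Vd
import Crest.Agent.N255.Dt.Vx
import Crest.Agent.N255.Vz.Gz

/-!
# Row 255 (helper36): the chains of the vertex region of `Vd`
-/

set_option autoImplicit false
open Set

noncomputable section

namespace Crest.Agent.N255.Ma.Vd
open Tp En Wn

variable {F : Subgroup F3} {S : Type} [MulAction F3 S] {X : Type} [TopologicalSpace X]
  [MulAction F X] [ContinuousConstSMul F X] {J : Fin 3 → Type} [∀ i, Fintype (J i)]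

section scalar
variable {k : Type} [Field k] {g : Geo F k S X} {u R₀ : ℝ} {n : ℕ} {τ : ∀ i, Ty (J i)} {v : F3}
  {h o : Fin 3 → Bool} (D : Vd g u R₀ n τ v h o) {K : Set X} {R : ℝ} {σ : Fin 3 → Ch k 3 X}

theorem exists_rc' [T2Space X] (hK : IsCompact K) (hs : ∀ i, (D.ω i).Sig R (σ i)) :
    Nonempty (D.Rc K R σ) :=
  (D.st' hs).exists_rc (L := D.L) rfl (fun _ => le_rfl) (fun _ => le_rfl)
    (fun i => (D.r_le i n).trans (by linarith [(D.ω i).u0])) (D.ω 0).u0.le hK hK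

/-- the wall chains are small chains of the centres -/
theorem sig_mem (hs : ∀ i, (D.ω i).Sig R (σ i)) (i : Fin 3) :
    σ i ∈ (g.E.toLev.Sb (win (D.s i) ((D.ω i).l n) ((D.ω i).r n))).ch k 3 := (D.st' hs).mem i

theorem sig_ce (hs : ∀ i, (D.ω i).Sig R (σ i)) (i : Fin 3) : σ i ∈ (D.P (D.L.ce i)).ch k 3 :=
  Sb.ch_mono (SB_mono (Vz.Lv.sub_ce (L := D.L) subset_rfl)) (D.sig_mem hs i)

theorem sig_hi (hs : ∀ i, (D.ω i).Sig R (σ i)) (i : Fin 3) :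
    (if o i then σ i else -σ i) ∈ (On (hi (D.L.s i) (D.L.l i D.L.n))).ch k 3 := by
  have := ch_mono win_hi (Sb.ch_mono Sb.inf_le_left (D.sig_mem hs i))
  split_ifs
  exacts [this, neg_mem this]

theorem c_off (rad : ∀ x ∈ K, g.E.r x ≤ R) (r : D.Rc K R σ) : r.c ∈ (On Kᶜ).ch k 3 :=
  Sb.ch_mono (Sb.inf_le_left.trans (Sg.Pc_off rad)) r.hc

theorem rh' (hK : IsCompact K) (rad : ∀ x ∈ K, g.E.r x ≤ R) (hs : ∀ i, (D.ω i).Sig R (σ i))
    (r : D.Rc K R σ) : Dt.Rh D.L g.E.cv g.O K r.ρ :=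
  ⟨hK, r.mem, r.fund, r.c, D.c_off rad r, _, D.sig_hi hs, r.bd⟩

theorem bd_Qb (rad : ∀ x ∈ K, g.E.r x ≤ R) (hs : ∀ i, (D.ω i).Sig R (σ i)) (r : D.Rc K R σ) :
    bd k (∑ z, r.ρ z) ∈ (D.L.Qb K).ch k 3 := by
  rw [r.bd]
  exact add_mem (Sb.ch_mono (Vz.Lv.le_Qb K) (D.c_off rad r))
    (sum_mem fun i _ => Sb.ch_mono (Vz.Lv.le_Qb' K i) (D.sig_hi hs i))

theorem St_inn (K : Set X) : K ∩ D.L.St D.L.n ⊆ K ∩ Sg.inn D.L.s fun i => (D.ω i).l n :=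
  inter_subset_inter_right _ fun _ hx i => (hx i).le

theorem vt_bd0 (hs : ∀ i, (D.ω i).Sig R (σ i)) (hR : R₀ ≤ R) (r : D.Rc K R σ) :
    bd k (∑ z, r.ρ z) = (D.vt hs hR r).c + ∑ j, if o j then σ j else -σ j := r.bd

end scalar

variable {p : ℕ} [Fact p.Prime] {g : Geo F (ZMod p) S X} {u R₀ : ℝ} {n : ℕ} {τ : ∀ i, Ty (J i)} {v : F3}
  {h o : Fin 3 → Bool} (D : Vd g u R₀ n τ v h o) {K : Set X} {R : ℝ} {σ : Fin 3 → Ch (ZMod p) 3 X}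

/-- **the chains exist** -/
theorem exists_rc [T2Space X] (O : D.Off K R) (hs : ∀ i, (D.ω i).Sig R (σ i)) : Nonempty (D.Rc K R σ) :=
  D.exists_rc' O.cpt hs

theorem rh (O : D.Off K R) (hs : ∀ i, (D.ω i).Sig R (σ i)) (r : D.Rc K R σ) :
    Dt.Rh D.L g.E.cv g.O K r.ρ := D.rh' O.cpt O.rad hs r

end Crest.Agent.N255.Ma.Vd

end
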