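import Crest.Agent.N255.Ma.Vd
import Crest.Agent.N255.Lz.Far

/-!
# Row 255 (helper85): the far facts `f0`, `f1` of the vertex family
-/

set_option autoImplicit false
open Set Sum

noncomputable section

namespace Crest.Agent.N255.Ma.Vd
open Tp Nv Pt Lv En Wn Le Cs Cs.Tw _root_.N255.Core _root_.N255.Dr _root_.N255.Dr.O

variable {F : Subgroup F3} {S : Type} [MulAction F3 S] {X : Type} [TopologicalSpace X]
  [MulAction F X] [ContinuousConstSMul F X] {p : ℕ} [Fact p.Prime] {J : Fin 3 → Type}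
  [∀ i, Fintype (J i)] {g : Geo F (ZMod p) S X} {u R₀ : ℝ} {n : ℕ} {τ : ∀ i, Ty (J i)} {v : F3}
  {h o : Fin 3 → Bool} (D : Vd g u R₀ n τ v h o) {K : Set X} {R : ℝ}

theorem C_disj85 : Pairwise fun i j => Disjoint (D.C i) (D.C j) := fun _ _ e =>
  disjoint_left.2 fun _ hx => Vl.hi_compl e (D.c_pos _).le (D.c_pos _).le hx

theorem jb_eq (i : Fin 3) :
    Ms.jb D.V0 (xM p J o) D.bV i = if o i then xV p ⟨i, inr false⟩ else 0 := by
  unfold Ms.jb bV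
  split_ifs with e
  · rw [val_un, la]; abel
  · rw [xM, show o i = false by simpa using e, sub_self]

theorem ja_XV85 (i : Fin 3) : In D.XV (Ms.ja D.V0 (xM p J o) (aV p J) i) :=
  Ideal.mem_sup_left (Gr.mem_sp ⟨i, rfl⟩)

theorem zs_core85 (z : D.Ix) : D.L.zs z ⊆ Vc.core D.L.s fun _ => 1 - u := fun _ hx i =>
  (show D.L.s i _ < D.L.r i from Vz.Lv.zs_lo z i hx).trans_le (D.r_le i n)

theorem Fz_le85 (z : D.Ix) :
    (D.Fz K z).Le ((g.E.toLev.Sb (Vc.core D.L.s fun _ => 1 - u)).inf (On Kᶜ)) :=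
  fun _ _ q => ⟨⟨q.1.1.trans (D.zs_core85 z), q.1.2⟩, q.2⟩

variable {D}

theorem Off.ct (O : D.Off K R) (i : Fin 3) (j : J i) :
    D.qa ⟨i, inl j⟩ ∈ (On Kᶜ).van (ZMod p) (ZMod p) 2 := Sb.cob_mem (O.cx i (inl j))

theorem Off.ew (O : D.Off K R) (i : Fin 3) :
    D.ew i - Wv.ct (D.C i) (Ms.zc (ZMod p) (D.V0.T i).be) ∈ (On Kᶜ).van (ZMod p) (ZMod p) 1 :=
  fun σ hσ => by
    have e : (D.ω i).η σ = 0 := neg_eq_zero.1 (O.cx i (inr false) σ hσ)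
    have e' : (D.ω i).xw σ = Ms.zc (ZMod p) (D.V0.T i).be σ := by
      rw [Wd.xw, Pi.sub_apply, e, sub_zero]
      exact (Lev.mz_cast (ZMod p) σ).symm
    simp only [Vd.ew, Pi.sub_apply, Ms.ct_apply, e', sub_self]

/-- off `K` the sources are the coboundaries of the jumps on `be` -/
theorem Off.src (O : D.Off K R) (K' : Set X) (ρ : D.Ix → Ch (ZMod p) 4 X) {σ : Sx 2 X}
    (hσ : σ ∈ (On Kᶜ).S 2) : Lz.lin (D.Y K' ρ).q D.ε σ = ∑ j, cob (ZMod p)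
      (Wv.ct (D.C j) (Ms.zc (ZMod p) (D.V0.T j).be)) σ • Ms.jb D.V0 (xM p J o) D.bV j := by
  have e1 : ∀ i j, D.qa ⟨i, inl j⟩ σ • xV p (⟨i, inl j⟩ : Cl3 J) = 0 := fun i j => by
    rw [O.ct i j σ hσ, zero_smul]
  have e2 : ∀ i, D.qa ⟨i, inr true⟩ σ • xV p (⟨i, inr true⟩ : Cl3 J) = 0 := fun i => by
    simp [qa, pq]
  have e3 : ∀ i, D.qa ⟨i, inr false⟩ σ • xV p (⟨i, inr false⟩ : Cl3 J) = cob (ZMod p)
      (Wv.ct (D.C i) (Ms.zc (ZMod p) (D.V0.T i).be)) σ • Ms.jb D.V0 (xM p J o) D.bV i := fun i => by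
    rw [jb_eq]
    split_ifs with e
    · have := Sb.cob_mem (O.ew i) σ hσ
      rw [map_sub, Pi.sub_apply, sub_eq_zero] at this
      simp [qa, pq, e, this]
    · simp [qa, pq, e]
  refine (Fintype.sum_of_injective Subtype.val Subtype.val_injective _
    (fun q : Cl3 J => D.qa q σ • xV p q) ?_ fun _ => rfl).trans ?_
  · rintro ⟨i, j | _ | _⟩ hq
    · exact e1 i j
    · have : o i = false := by
        by_contra c
        exact hq ⟨⟨⟨i, inr false⟩, by simp [Ty.kb, c]⟩, rfl⟩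
      simp [qa, pq, this]
    · exact e2 i
  · simp only [Fintype.sum_sigma, Fintype.sum_sum_type, Fintype.sum_bool, e1, e2, e3,
      Finset.sum_const_zero, zero_add]

variable [T2Space X] (O : D.Off K R) (ρ : D.Ix → Ch (ZMod p) 4 X)
include O

/-- the far part of a zone of a wall -/
theorem Off.f_slot (i : Fin 3) (z : Fin (D.L.n + 1)) : CI (D.Fz K (some (i, z)))
    (mx * (D.Y K ρ).Iz D.GV D.ε (some (i, z))) (D.f K ρ) := by
  have h0 : u ≤ D.L.l i z := (Vl.u_lt (D.ω i) z).le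
  have h2 : D.L.ub i z ≤ 1 - u := Vz.Lv.ub_le.trans (D.r_le i n)
  have hC : D.L.zs (some (i, z)) ⊆ D.C i :=
    Vz.Lv.zs_hi.trans (hi_mono ((D.cl i).le.trans (Vl.l_le _ (Nat.zero_le _))))
  refine Lz.Gz.far1 (Y := D.Y K ρ) (e := st v h i) (e' := Sg.em v h o i) (o := o i) (R := R)
    (a := aV p J i) (b := D.bV i) (fun a ha => D.src.q_van a ha.ne') rfl g.deg (D.ω 0).big
    (D.ω 0).u0 h0 ((Vz.Lv.l_lt (Nat.lt_add_of_pos_right two_pos)).trans_le (Vz.Lv.le_ub le_rfl)) h2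
    (fun _ _ q => q) Tg.mx_nil (uV_U p _) (D.bV_U i)
    (fun _ _ q => ⟨⟨fun _ hx => (q.1 hx).2, q.2⟩, q.1.trans (g.E.toLev.fw_off O.rad _)⟩)
    (fun m σ q => Lev.T_ek (w := g.w) (e := Sg.em v h o) (fun _ => rfl) i ▸
      O.wl i m ⟨⟨q.1.1.trans (win_mono h0 h2), q.1.2⟩, q.2⟩)
    (fun σ q => (O.G σ q.2).trans (Ms.bs_some (Ms.slv_in D.C_disj85 (q.1.1.trans hC))))
    (D.fam.cu _) fun σ q => Lz.lin_zero (fun a => ?_) _ q
  obtain ⟨j, l, e, -⟩ | ⟨j, e, -⟩ := a.cases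
  · rw [Y_q, e]; exact Sb.van_mono Sb.inf_le_right (O.ct j l)
  · refine Sb.van_mono Sb.inf_le_left ?_
    have t : D.src.t a = D.c j := by show D.tq a.1 = _; rw [e]; rfl
    have s : D.src.sl a = j := by show a.1.1 = _; rw [e]
    by_cases c : i = j
    · exact D.src.q_hi a (by rw [t, s, ← c]; exact hC)
    · exact D.src.q_lo a (by
        rw [t, s]; exact Vz.Lv.zs_hi.trans (Vz.Lv.hi_lo c Vz.Lv.l_pos.le (D.c_pos j).le))

omit [T2Space X] in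
/-- the far part of the core zone -/
theorem Off.f_core {z : D.Ix} (hz : (D.Y K ρ).pos z = 0) :
    CI (D.Fz K z) (D.XV ⊔ mx * (D.Y K ρ).Iz D.GV D.ε z) (D.f K ρ) :=
  Lz.Gz.far0 (hm := G2_mx p J) (hn := Tg.mx_nil) (hx := xM_U p o) hz D.C_disj85 D.id_XV (id_NV p o)
    (NV_le p o) le_sup_right (xM_N p o) (fun _ => uV_U p _) D.bV_U D.ja_XV85
    (fun j => by
      rw [jb_eq]
      split_ifs with e
      exacts [.inr ⟨⟨⟨j, inr false⟩, by simp [Ty.kb, e]⟩, rfl⟩, .inl rfl])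
    ((D.Fz_le85 z).trans O.pv) (fun e q j => O.sl j e (D.Fz_le85 z 1 q)) (fun e q => O.G e q.2)
    fun _ q => O.src K ρ q.2

omit [T2Space X] in
/-- **`f0` of `Gz.Ok.vx`** -/
theorem Off.f0 (z : D.Ix) (hz : (D.Y K ρ).pos z = 0) :
    CI (D.Fz K z) (Ideal.span (range D.bX) ⊔ mx * (D.Y K ρ).Iz D.GV D.ε z) (D.f K ρ) :=
  D.span_bX ▸ O.f_core ρ hz

/-- **`f1` of `Gz.Ok.vx`** -/
theorem Off.f1 (z : D.Ix) (hz : 0 < (D.Y K ρ).pos z) :
    CI (D.Fz K z) (mx * (D.Y K ρ).Iz D.GV D.ε z) (D.f K ρ) := by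
  rcases z with _ | ⟨i, z⟩
  exacts [absurd hz (lt_irrefl 0), O.f_slot ρ i z]

end Crest.Agent.N255.Ma.Vd

end
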