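import Crest.Agent.N255.Ma.Vd

/-!
# Row 255 (helper88): the normalised curvature of the vertex family is a normal form on all zones
-/

set_option autoImplicit false
open Set Module Sum

noncomputable section

namespace Crest.Agent.N255.Ma.Vd
open Tp Nv Pt Lv En Wn Le Cs Cs.Tw

variable {F : Subgroup F3} {S : Type} [MulAction F3 S] {X : Type} [TopologicalSpace X]
  [MulAction F X] [ContinuousConstSMul F X] {J : Fin 3 → Type} [∀ i, Fintype (J i)]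
  {u R₀ : ℝ} {n : ℕ} {τ : ∀ i, Ty (J i)} {v : F3} {h o : Fin 3 → Bool}

section scalar
variable {k : Type} [Field k] {g : Geo F k S X} (D : Vd g u R₀ n τ v h o)

theorem zs_mem (i : Fin 3) (z : Fin (n + 1)) : D.L.zs (some (i, z)) ∈ (D.ω i).Z 0 := by
  rcases eq_or_ne z (Fin.last _) with rfl | hz
  · exact .inl (Vz.Lv.zs_ce (L := D.L))
  · have hz : (z : ℕ) < n := Fin.val_lt_last hz
    exact .inr ⟨z, Nat.zero_le _, hz, .inl (Vz.Lv.zs_lt (L := D.L) hz)⟩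

/-- the normal forms of the vertex -/
theorem nf_EG (ρ : D.Ix → Ch k 4 X) {e : Co k 2 X} (he : e ∈ D.vf.EG) : (D.Y0 ρ).NF e
  | none => D.vf.core e he
  | some (i, z) => D.vf.zn i _ (D.zs_mem i z) e he

/-- the near sources vanish on all zones -/
theorem qa_near {q : Cl3 J} (hq : (τ q.1).kb q.2 ≠ some (!o q.1)) (z : D.Ix) :
    D.qa q ∈ (D.P z).van k k 2 := by
  obtain ⟨i, j | c⟩ := q
  · have e : (τ i).kd j = o i := by
      by_contra e
      exact hq (congrArg some (Bool.eq_not_iff.2 e))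
    have := (Wv.ct_ZP ((D.ω i).mem j) subset_rfl).2
    refine Sb.van_mono (Sb.inf_le_left.trans (On_le ?_)) (Sb.mem_Z.1 this)
    rw [show Bs _ _ _ _ _ = _ from Vl.B_near e _]
    exact (Vz.Lv.zs_lo z i).trans (lo_mono ((D.ω i).win.ar.antitone ((D.ω i).sc_lt j)))
  · have : D.pq ⟨i, inr c⟩ = 0 := if_neg fun ⟨e, e'⟩ => hq (by simp [Ty.kb, e, e'])
    rw [qa, this, map_zero]
    exact zero_mem _

theorem sum_far (x : Cl3 J → k) (z : D.Ix) :
    ∑ q, x q • D.qa q - ∑ a : Fr τ o, x a.1 • D.qa a.1 ∈ (D.P z).van k k 2 := by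
  classical
  have e := Fintype.sum_subtype_add_sum_subtype (fun q : Cl3 J => (τ q.1).kb q.2 = some (!o q.1))
    fun q => x q • D.qa q
  have e' : ∑ a : Fr τ o, x a.1 • D.qa a.1 =
      ∑ a : {q : Cl3 J // (τ q.1).kb q.2 = some (!o q.1)}, x a.1 • D.qa a.1 :=
    Finset.sum_congr (congrArg _ (Subsingleton.elim _ _)) fun _ _ => rfl
  rw [← e, e', add_sub_cancel_left]
  exact sum_mem fun q _ => Submodule.smul_mem _ _ (D.qa_near q.2 z)

theorem qa_near_P {q : Cl3 J} (hq : (τ q.1).kb q.2 ≠ some (!o q.1)) (z : D.Ix) :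
    D.qa q ∈ (D.P z).van k k 2 := D.qa_near hq z

theorem qa_P (a : Fr τ o) {z : D.Ix} (hz : D.L.pos z ≠ (τ a.1.1).sb a.1.2) :
    D.qa a.1 ∈ (D.P z).van k k 2 := D.src.q_van a hz

theorem qa_ce (i : Fin 3) (a : Fr τ o) : D.qa a.1 ∈ (D.P (D.L.ce i)).van k k 2 := D.src.q_ce a i

end scalar

variable {p : ℕ} [Fact p.Prime] {g : Geo F (ZMod p) S X} (D : Vd g u R₀ n τ v h o) (K : Set X)
  (ρ : D.Ix → Ch (ZMod p) 4 X)

theorem cur_EG (l : Dual (ZMod p) (Tw (G2 p J))) : Ku.lc l (cur D.GV - D.SG) ∈ D.vf.EG :=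
  D.fam.curv l ▸ D.vf.nf _

theorem lc_f_sub (l : Dual (ZMod p) (Tw (G2 p J))) (z : D.Ix) :
    Ku.lc l (D.f K ρ) - Ku.lc l (cur D.GV - D.SG) ∈ (D.P z).van (ZMod p) (ZMod p) 2 := by
  rw [f, Lz.Gz.f, Lp.lc_sub, Lp.lc_sub, sub_sub_sub_cancel_left, SG, Lp.lc_src, Lz.lc_lin]
  exact D.sum_far (fun q => l (xV p q)) z

/-- on the zones the normalised curvature is the curvature minus all sources -/
theorem f_eq {z : D.Ix} {σ : Sx 2 X} (hσ : σ ∈ (D.P z).S 2) : D.f K ρ σ = cur D.GV σ - D.SG σ :=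
  sub_eq_zero.1 ((Module.forall_dual_apply_eq_zero_iff (ZMod p) _).1 fun l =>
    (map_sub l _ _).trans (D.lc_f_sub K ρ l z σ hσ))

theorem f_P (z : D.Ix) {σ : Sx 2 X} (hσ : σ ∈ (D.P z).S 2) : D.f K ρ σ = (cur D.GV - D.SG) σ :=
  D.f_eq K ρ hσ

theorem lin_P (z : D.Ix) {σ : Sx 2 X} (hσ : σ ∈ (D.P z).S 2) : Lz.lin (D.Y K ρ).q D.ε σ = D.SG σ :=
  sub_right_injective (D.f_eq K ρ hσ)

/-- **the normalised curvature is a normal form** -/
theorem nf (l : Dual (ZMod p) (Tw (G2 p J))) : (D.Y0 ρ).NF (Ku.lc l (D.f K ρ)) :=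
  (D.nf_EG ρ (D.cur_EG l)).congr (D.lc_f_sub K ρ l)

theorem nf' (l : Dual (ZMod p) (Tw (G2 p J))) : (D.Y K ρ).NF (Ku.lc l (D.f K ρ)) := D.nf K ρ l

omit [Fact p.Prime] in
/-- the far sources vanish on the centres -/
theorem hq_ce {k : Type} [Field k] {g : Geo F k S X} (D : Vd g u R₀ n τ v h o) (K : Set X)
    (ρ : D.Ix → Ch k 4 X) (i : Fin 3) (a : Fr τ o) :
    (D.Y K ρ).q a ∈ ((D.Y K ρ).PK i).van k k 2 := D.src.q_ce a i

end Crest.Agent.N255.Ma.Vd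

end
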