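import Crest.Agent.N255.Ma.Vd
import Crest.Agent.N255.Wn.WdV

/-!
# Row 255 (helper72): the scalar facts on the zones of a vertex
-/

set_option autoImplicit false
open Set

noncomputable section

namespace Crest.Agent.N255.Ma.Vd

open Tp Wn Pt Lv En

variable {F : Subgroup F3} {S : Type} [MulAction F3 S] {X : Type} [TopologicalSpace X]
  [MulAction F X] [ContinuousConstSMul F X] {J : Fin 3 → Type} [∀ i, Fintype (J i)] {u R₀ R : ℝ} {n : ℕ}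
  {τ : ∀ i, Ty (J i)} {v : F3} {h o : Fin 3 → Bool} {K : Set X} [T2Space X] [ChartedSpace (EE 4) X]

/-- **the scalar facts at a vertex** -/
theorem Y_ok {k : Type} [Field k] {g : Geo F k S X} (D : Vd g u R₀ n τ v h o) {σ : Fin 3 → Ch k 3 X}
    (hK : IsCompact K) (rad : ∀ x ∈ K, g.E.r x ≤ R) (hs : ∀ i, (D.ω i).Sig R (σ i))
    (r : D.Rc K R σ) : (D.Y K r.ρ).Ok := by
  refine D.src.gz_ok g.E.cv_open g.E.cv_cover.ge g.nd g.acy (r := g.E.r)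
    (fun _ _ => g.E.toLev.cpt_win _ _ _ _)
    (fun i m _ hm => (D.ω i).sp_far hm (Vz.Lv.l_pos (L := D.L)) (Vz.Lv.l_lt (L := D.L) m.lt_succ_self)
      (fun j e hj => ⟨⟨⟨i, .inl j⟩, congrArg some (Bool.eq_not_iff.2 e)⟩, ⟨hj, rfl⟩, rfl⟩)
      fun e => ⟨⟨⟨i, .inr false⟩, by simp [Ty.kb, e]⟩, ⟨Nat.zero_le _, rfl⟩, rfl⟩)
    (fun i m hm => (D.ω i).cst_sb ((Nat.le_add_right m 2).trans_lt hm)) hK
    (hK.inter_right (Sg.isClosed_inn _ _)) (fun _ hx => ⟨hx.1, fun j => (hx.2 j).le⟩) r.mem r.fund ?_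
  have m := fun j => Sb.ch_mono ((Sb.inf_le_left.trans (On_le win_hi)).trans
    (Vz.Lv.le_Qb' (L := D.L) K j)) ((D.st' hs).mem j)
  rw [r.bd]
  refine add_mem (Sb.ch_mono ((Sb.inf_le_left.trans (Sg.Pc_off rad)).trans (Vz.Lv.le_Qb K)) r.hc)
    (sum_mem fun j _ => ?_)
  split_ifs
  exacts [m j, neg_mem (m j)]

theorem Off.Y_ok {p : ℕ} [Fact p.Prime] {g : Geo F (ZMod p) S X} {D : Vd g u R₀ n τ v h o}
    {σ : Fin 3 → Ch (ZMod p) 3 X} (O : D.Off K R) (hs : ∀ i, (D.ω i).Sig R (σ i)) (r : D.Rc K R σ) :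
    (D.Y K r.ρ).Ok := D.Y_ok O.cpt O.rad hs r

end Crest.Agent.N255.Ma.Vd

end
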