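import Crest.Agent.N255.Vf.Zok
import Crest.Agent.N255.Vf.Yok
import Crest.Agent.N255.Vf.Nf
import Crest.Agent.N255.Vf.Far

/-!
# Row 255 (helper86): the located ideals of a vertex, all hypotheses discharged
-/

set_option autoImplicit false
open Set Module Sum

noncomputable section

namespace Crest.Agent.N255.Ma.Vd
open Tp Nv Pt Lv En Wn Le Cs Cs.Tw _root_.N255.Core _root_.N255.Dr _root_.N255.Dr.O

variable {F : Subgroup F3} {S : Type} [MulAction F3 S] {X : Type} [TopologicalSpace X]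
  [MulAction F X] [ContinuousConstSMul F X] {p : ℕ} [Fact p.Prime] {J : Fin 3 → Type}
  [∀ i, Fintype (J i)] {g : Geo F (ZMod p) S X} {u R₀ : ℝ} {n : ℕ} {τ : ∀ i, Ty (J i)} {v : F3}
  {h o : Fin 3 → Bool} {D : Vd g u R₀ n τ v h o} {K : Set X} {R : ℝ}
  {σ : Fin 3 → Ch (ZMod p) 3 X} [T2Space X] [ChartedSpace (EE 4) X]

/-- **the located ideals of the vertex region** -/
theorem Off.Z_ok (O : D.Off K R) (hs : ∀ i, (D.ω i).Sig R (σ i)) (r : D.Rc K R σ) :
    (D.Z K r.ρ).Ok :=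
  Vd.Z_ok (O.Y_ok hs r) (D.nf' K r.ρ) (fun _ q => O.f_core r.ρ q) fun k q => O.f1 r.ρ k q

end Crest.Agent.N255.Ma.Vd

end
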