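import Crest.Agent.N255.Vf.Agr
import Crest.Agent.N255.Vf.Adm

/-!
# Row 255 (helper10): the comparison `Cmp` of the wall families with the vertex family exists
-/

set_option autoImplicit false
open Set Sum

noncomputable section

namespace Crest.Agent.N255.Ma
open Tp Nv Pt Lv En Wn Le Cs Cs.Tw Ku Lp _root_.N255.Dr _root_.N255.Dr.O

variable {F : Subgroup F3} {S : Type} [MulAction F3 S] {X : Type} [TopologicalSpace X]
  [MulAction F X] [ContinuousConstSMul F X]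

theorem Wd.Zb2_le {k : Type} [Field k] {g : Geo F k S X} {u R₀ : ℝ} {n : ℕ} {J : Type} [Fintype J]
    {τ : Ty J} {e : Ed (Fin 3)} {o : Bool} (ω : Wd g u R₀ n τ e o) (hn : 2 ≤ n) :
    (ω.Zb 2).Le ω.Wr := fun m σ hσ => ⟨ω.Zb_anti (Nat.zero_le 2) m hσ, by
  obtain ⟨U, hU, h⟩ := hσ.1
  refine h.trans fun x hx => ?_
  obtain rfl | ⟨z, a, -, rfl | rfl⟩ := hU
  · exact (Vl.l_le ω hn).trans_lt hx.1
  · exact (Vl.l_le ω a).trans_lt hx.1
  · exact (ω.win.lt 2 _).trans hx.1⟩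

namespace Vd
variable {p : ℕ} [Fact p.Prime] {J : Fin 3 → Type} [∀ i, Fintype (J i)]
  {g : Geo F (ZMod p) S X} {u R₀ : ℝ} {n : ℕ} {τ : ∀ i, Ty (J i)} {v : F3}
  {h o : Fin 3 → Bool} (D : Vd g u R₀ n τ v h o) (i : Fin 3)

/-- the substitution of one wall -/
theorem exists_iox : ∃ (io : OU p (J i) →ₐ[ZMod p] OV p J) (hom : (GU p (J i)).Hom (G2 p J) io),
    (∀ x, io (z x) ∈ mx) ∧ um hom (uv p (inr true)) = aV p J i ∧ um hom (uv p (inr false)) = D.bV i ∧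
      ∀ j, xV p ⟨i, inl j⟩ + D.tf i j - Tw.map hom (xv p (inl j)) =
        dl (D.ω i).lam (D.vf.mu i) (mc hom (nl (ZMod p) (D.ω i).g1 (D.ω i).Sr (D.ω i).gU))
          (nl (ZMod p) D.G1 D.SG D.GV) j := by
  have hb : ∀ x : Uv p (J i), (G2 p J).pr x.2 (Tw.o _ (D.xG ⟨i, x.1⟩)) ∈ mx := fun x =>
    G2_mx p J _ _ (D.xG_in _)
  have hr : {x : Uv p (J i) | ∃ c, x.1 = inr c} ⊆
      (range fun q : J i × Cs.Gm p => ((inl q.1, q.2) : Uv p (J i)))ᶜ := by
    rintro _ ⟨c, e⟩ ⟨q, rfl⟩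
    simp at e
  obtain ⟨ψ, hom, a1, a2, a3⟩ := exists_io (G := G2 p J) (e := fun q : J i × Cs.Gm p => (inl q.1, q.2))
    Tg.mx_nil (fun _ => pow_p) (GU_z p (J i)) (fun _ => rfl)
    (fun a b e => Prod.ext (inl_injective (Prod.mk.inj e).1) (Prod.mk.inj e).2)
    (lift _ fun x => pow_p (hb x)) (fun x => by rw [lift_z]; exact ⟨(G2 p J).hg_pr _ _, hb x⟩)
    (fun s => ((D.ω i).nl_Jl s).mono (sup_le (le_sup_of_le_right (Ideal.span_mono (image_mono hr)))
      le_sup_left)) (D.fam.nl_in (Lp.src_in (xV_in p))) (G2_mx p J) (D.ω i).lam (D.vf.mu i)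
    (T := fun j => xV p ⟨i, inl j⟩ + D.tf i j) fun j => In.add (xV_in p _)
      (In.sum fun q (_ : q ∈ Finset.univ) => in_smul _ (D.xG_in q))
  · have k1 : ∀ c γ, ψ (z (inr c, γ)) = (G2 p J).pr γ (Tw.o _ (D.xG ⟨i, inr c⟩)) := fun c γ => by
      rw [a2 (inr c, γ) (by simp), lift_z]
    have k : ∀ c, Tw.map hom (xv p (inr c)) = D.xG ⟨i, inr c⟩ := fun c => (Tw.o _).injective (by
      rw [o_map, show Tw.o _ (xv p (inr c)) = ∑ γ, (z (inr c, γ) : OU p (J i)) from rfl, map_sum]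
      simp only [k1]
      exact (G2 p J).sum _)
    have k2 : ∀ c, (um hom (uv p (inr c))).val - 1 = D.xG ⟨i, inr c⟩ := fun c => by
      rw [← k, ← uv_sub, map_sub, map_one, val_um]
    exact ⟨ψ, hom, a1, Units.ext (sub_left_inj.1 ((k2 true).trans (uV_sub p _).symm)),
      Units.ext (sub_left_inj.1 (k2 false)), a3⟩

/-- **the comparison exists** -/
theorem exists_cmp' : Nonempty D.Cmp := by
  choose io hom hm ha hb hd using D.exists_iox
  have Fm := fun i => (D.ω i).fam.map (hm' := G2_mx p J) (hom i) fun _ hx => map_mx _ (hm i) hx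
  have hS : ∀ i {W : Tp.Sb X}, W.Le (D.ω i).Wr → CI W ⊥ (D.SG - mc (hom i) (D.ω i).Sr -
      cob (ZMod p) (Cs.dif D.G1 (mp (hom i) (D.ω i).g1))) := fun i _ hW σ hσ =>
    In.eq Cs.in_zero (D.SG_agr (hom i) (ha i) (hb i) σ (hW 2 hσ))
  have key : ∀ i k, 2 + k ≤ n → CI ((D.ω i).Zb (2 + k)) (⊥ ⊔ mx ^ (k + 1))
      (Cs.dif D.GV (mp (hom i) (D.ω i).gU)) := fun i k hk =>
    have a := (D.ω i).Zb2_le (le_of_add_le_left hk)
    Fam.cmp_hp (Fm i) D.fam Tg.mx_nil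
      (fun σ => map_mx _ (hm i) (Lp.src_in (fun j => xv_in p (inl j)) σ)) (Lp.src_in (xV_in p))
      (G2 p J).id_bot (Z := (D.ω i).Zb) (fun _ => (D.ω i).Zb_anti (Nat.le_succ _)) (b := n)
      (fun f => Sb.van_mono a (D.vf.agr i f)) (fun k _ c f hf => ((D.ω i).nf.fl2 k c f hf).1)
      (fun e he => In.eq Cs.in_zero (by
        rw [Pi.sub_apply, D.G1_agr (hom i) (ha i) (hb i) e (a 1 he), funext (hd i), mc_nl, sub_self]))
      (hS i a) hk
  refine ⟨⟨io, hom, ha, hb, fun i j => ?_, fun i j => ?_, fun i => ?_⟩⟩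
  · exact In.eq (In.neg (h1_of (hom i) (hm i) (ha i) (hb i) _ _ j)) (by rw [← hd]; abel)
  · obtain c | c := le_or_gt ((τ i).sc j) 2
    · rw [Nat.sub_eq_zero_of_le c, pow_zero, Ideal.one_eq_top]; exact Submodule.mem_top
    · obtain ⟨k, e⟩ := Nat.exists_eq_add_of_le c.le
      have b := (D.ω i).sc_lt j
      have := dl_in (lam := (D.ω i).lam) (mu := D.vf.mu i) (j := j)
        ((G2 p J).id_bot.sup ((G2_mx p J).pow (k + 1))) ((Fm i).cu _) (D.fam.cu _)
        (key i k (by omega)) (hS i (((D.ω i).Zb_anti (Nat.le_add_right 2 k)).trans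
          ((D.ω i).Zb2_le (by omega))))
        (by_contra fun a => by have := (D.vf.mu0 i j a).2; omega)
        fun f hf => ((D.ω i).nf.fl2 _ (by omega) f hf).2 j e.ge
      rw [← mc_nl, ← hd, bot_sup_eq, bot_sup_eq, ← pow_succ'] at this
      exact In.eq (In.neg (this.mono (Ideal.pow_le_pow_right (by omega)))) (by abel)
  · obtain c | c := le_or_gt n 2
    · rw [Nat.sub_eq_zero_of_le c, pow_zero, Ideal.one_eq_top]; exact fun _ _ => Submodule.mem_top
    · exact fun σ hσ => (key i (n - 2) (by omega) σ ((D.ω i).Pc_le _ 1 hσ)).mono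
        (sup_le bot_le (Ideal.pow_le_pow_right (Nat.le_succ _)))

end Vd

end Crest.Agent.N255.Ma

end
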