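import Crest.Agent.N255.Vd.End
import Crest.Agent.N255.Ma.Vb
import Crest.Agent.N255.Ma.Top2
import Crest.Agent.N255.Ma.Sig

/-!
# Row 255 (helper76): the graded boundary data `Gu`, `Gs` of a vertex
-/

set_option autoImplicit false
set_option linter.unusedSectionVars false
open Set Sum

noncomputable section

namespace Crest.Agent.N255.Ma
open Tp Nv Pt Lv En Wn Le Cs Cs.Tw _root_.N255.Core _root_.N255.Dr _root_.N255.Dr.O

variable {F : Subgroup F3} {S : Type} [MulAction F3 S] {X : Type} [TopologicalSpace X]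
  [MulAction F X] [ContinuousConstSMul F X] {p : ℕ} [Fact p.Prime] {J : Fin 3 → Type}
  [∀ i, Fintype (J i)]

theorem pr_uV (q : Cl3 J) (γ : Cs.Gm p) :
    (G2 p J).pr γ (Tw.o _ ((uV p q).val - 1)) = z ⟨q.1, q.2, γ⟩ :=
  pr_uz (G2_z p J) (s := Finset.univ) (v := fun γ => ⟨q.1, q.2, γ⟩) (fun _ _ _ _ e => e)
    (Finset.mem_univ γ)

theorem pr_xV (q : Cl3 J) (γ : Cs.Gm p) : (G2 p J).pr γ (Tw.o _ (xV p q)) = z ⟨q.1, q.2, γ⟩ :=
  uV_sub p q ▸ pr_uV q γ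

theorem xV_mem {I : Ideal (OV p J)} {q : Cl3 J} (h : ∀ γ, z ⟨q.1, q.2, γ⟩ ∈ I) : In I (xV p q) :=
  Gr.mem_of_pr (G := G2 p J) fun γ => (pr_xV q γ).symm ▸ h γ

namespace Vd
variable {g : Geo F (ZMod p) S X} {u R₀ : ℝ} {n : ℕ} {τ : ∀ i, Ty (J i)} {v : F3}
  {h o : Fin 3 → Bool} (D : Vd g u R₀ n τ v h o)

/-- the graded variables with the boundary data -/
def gu : Gu p (fun i => Uv p (J i)) o (Σ i, Uv p (J i)) where
  ys _ := Finset.univ.map ⟨fun γ => (inr true, γ), fun _ _ e => congrArg Prod.snd e⟩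
  cu i x := ⟨i, x⟩
  G := G2 p J
  d := d2 p J
  hO := G2_z p J
  b := D.bV
  hb := D.bV_U

theorem gu_G : D.gu.G = G2 p J := rfl

theorem gu_b : D.gu.b = D.bV := rfl

theorem gu_a : D.gu.a = aV p J := funext fun i => Units.ext (by
  rw [Gu.a, aV, uV, val_uz, val_uz]
  exact congrArg (fun x => 1 + Tw.up _ x) (Finset.sum_map _ _ _))

theorem bV_uV {i : Fin 3} (h : o i = false) : D.bV i = uV p ⟨i, inr false⟩ := if_neg (by simp [h])

theorem gu_x : D.gu.x = xM p J o := funext fun i => by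
  rcases e : o i with _ | _
  · rw [D.gu.x_L e]; exact D.bV_L e
  · rw [D.gu.x_M e, gu_a]; exact aV_M i e

theorem gu_N : D.gu.N = NV p J o := by
  rw [Gu.N, gu_x]
  refine le_antisymm ((id_NV p o).sp_le.2 ?_) (Ideal.span_le.2 ?_)
  · rintro _ ⟨j, rfl⟩
    exact xM_N p o j
  · rintro _ ⟨i, γ, rfl⟩
    exact Ideal.subset_span ⟨γ, _, ⟨i, rfl⟩, (pr_uV ⟨i, inr (o i)⟩ γ).symm⟩

variable {D} in
theorem la_eq {Tv : Vt (ZMod p) X o} (he : Tv.e = D.V0.e) (i : Fin 3) :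
    Tv.la (xM p J o) i = D.la i := by rw [la, Vt.la, Vt.la, he]

variable {D} in
theorem ja_L {i : Fin 3} (e : o i = false) :
    Ms.ja D.V0 (xM p J o) (aV p J) i = (aV p J i).val - (1 + D.la i) := by simp [Ms.ja, e, la]

variable {D} in
theorem ja_M {i : Fin 3} (e : o i = true) : Ms.ja D.V0 (xM p J o) (aV p J) i = 0 :=
  Ms.ja_M e (aV_M i e)

theorem gu_XI {Tv : Vt (ZMod p) X o} (he : Tv.e = D.V0.e) : D.gu.XI Tv = D.XV := by
  rw [Gu.XI, gu_N, gu_x, gu_a, XV]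
  refine congrArg (· ⊔ _) (le_antisymm (Gr.sp_mono ?_) ((Gr.id_sp _ _).sp_le.2 ?_))
  · rintro _ ⟨j, e, rfl⟩
    exact ⟨j, by rw [ja_L e, ← la_eq he]; rfl⟩
  · rintro _ ⟨j, rfl⟩
    rcases e : o j with _ | _
    · exact Gr.mem_sp ⟨j, e, by rw [ja_L e, ← la_eq he]; rfl⟩
    · rw [ja_M e, map_zero]; exact zero_mem _

theorem V0_e : D.V0.e = g.L.ε v h := rfl

theorem e_sq {Tv : Vt (ZMod p) X o} (he : Tv.e = D.V0.e) : Tv.e * Tv.e = 1 := by
  rw [he, V0_e, ← Units.val_mul, Int.units_mul_self, Units.val_one]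

theorem LV_le' {I : Ideal (OV p J)} (h1 : D.XV ≤ I)
    (h2 : ∀ i γ, o i = true → z ⟨i, inr false, γ⟩ ∈ I) : D.LV ≤ I :=
  sup_le h1 (Ideal.span_le.2 fun _ ⟨i, γ, e, e'⟩ => e' ▸ h2 i γ e)

variable {R : ℝ} {σ : Fin 3 → Ch (ZMod p) 3 X} (hs : ∀ i, (D.ω i).Sig R (σ i)) {c : ℕ}
  (hc : ∀ i j, (τ i).dp j ≤ c)

/-- the three walls -/
abbrev wl (i : Fin 3) : Wall p (Cs.Gm p) (Cs.g0 p) (Uv p (J i)) := (hs i).wall (hc i)

/-- the graded structure is the standard one -/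
def gs : Gs (D.wl hs hc) D.gu where
  hys i := Finset.ext fun x => by
    rw [mem_ys]
    refine Finset.mem_map.trans ⟨by rintro ⟨γ, -, rfl⟩; rfl, ?_⟩
    obtain ⟨j | _ | _, γ⟩ := x
    exacts [fun h => (by cases h), fun h => (by cases h), fun _ => ⟨γ, Finset.mem_univ _, rfl⟩]
  cu _ _ _ := rfl
  hd _ := rfl
  sur _ γ := ⟨(inr true, γ), rfl, rfl⟩
  wv _ y := (inr false, g0 p - y.2)
  nr _ _ _ := by simp [Wd.Sig.wall, Ty.kdU]
  hb i y e _ := by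
    rw [gu_b, D.bV_uV e]; exact pr_uV ⟨i, inr false⟩ _

theorem yv_kd (i : Fin 3) (d : ZMod p) : (D.wl hs hc i).kd (yv p (J i) i d) = none := rfl

theorem yv_deg (i : Fin 3) (d : ZMod p) : (D.wl hs hc i).deg (yv p (J i) i d) = (qd i, d) := rfl

variable {K : Set X} (hR : R₀ ≤ R) (r : D.Rc K R σ)

theorem vt_e0 : (D.vt hs hR r).e = D.V0.e := rfl

theorem vt_u [T2Space X] (j : Fin 3) : ((D.vt hs hR r).T j).s = g.u := (hs j).T_s hR

/-- **from `VB` to the vertex identity** -/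
theorem vxB [T2Space X] (hp : p ≠ 2) {B : ℕ} {T : _root_.N255.Wt.Ty (D.wl hs hc) c B} {κ α : Type} [Fintype α]
    (x : VB T D.gu (D.vt hs hR r) κ α) : VxW (D.wl hs hc) o c B :=
  x.vx (D.gs hs hc) (D.e_sq rfl) (D.vt_u hs hR r 0 ▸ g.u.ne_zero) hp (D.yv_kd hs hc) (D.yv_deg hs hc)

/-- the standard weights of the three walls -/
def ty (h3 : 3 ≤ c) {B : ℕ}
    (hB : ∀ i, (Finset.univ.filter fun x => ((τ i).sg p (hc i)).sc x ≤ 60 * c).card ≤ B) :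
    _root_.N255.Wt.Ty (D.wl hs hc) c B :=
  ⟨fun i => (τ i).sg p (hc i), fun _ _ => rfl, fun _ _ => rfl, h3, hB⟩

end Vd

end Crest.Agent.N255.Ma

end
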