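import Crest.Agent.N255.Ma.Vd

/-!
# Row 255 (helper86): the located ideals of a vertex satisfy the hypotheses of the ideal calculus
-/

set_option autoImplicit false
open Set Module Sum

noncomputable section

namespace Crest.Agent.N255.Ma.Vd
open Tp Nv Pt Lv En Wn Le Cs Cs.Tw _root_.N255.Core _root_.N255.Dr _root_.N255.Dr.O

variable {F : Subgroup F3} {S : Type} [MulAction F3 S] {X : Type} [TopologicalSpace X]
  [MulAction F X] [ContinuousConstSMul F X] {p : ℕ} [Fact p.Prime] {J : Fin 3 → Type}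
  [∀ i, Fintype (J i)] {g : Geo F (ZMod p) S X} {u R₀ : ℝ} {n : ℕ} {τ : ∀ i, Ty (J i)} {v : F3}
  {h o : Fin 3 → Bool} {D : Vd g u R₀ n τ v h o} {K : Set X} {ρ : D.Ix → Ch (ZMod p) 4 X}

theorem zok_fl {A : Type} [CommRing A] (m : Ideal A) :
    _root_.N255.Sl.Fl fun a => m ^ ((a + 12) / 13) where
  zero := by simp
  anti h := Ideal.pow_le_pow_right (by omega)
  mul a b := (pow_add m _ _).ge.trans (Ideal.pow_le_pow_right (by omega))

/-- **the located ideals** -/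
theorem Z_ok (hY : (D.Y K ρ).Ok) (nf : ∀ l, (D.Y K ρ).NF (Ku.lc l (D.f K ρ)))
    (f0 : ∀ k, D.L.pos k = 0 → CI (D.Fz K k) (D.XV ⊔ mx * (D.Y K ρ).Iz D.GV D.ε k) (D.f K ρ))
    (f1 : ∀ k, 0 < D.L.pos k → CI (D.Fz K k) (mx * (D.Y K ρ).Iz D.GV D.ε k) (D.f K ρ)) :
    (D.Z K ρ).Ok :=
  hY.vx (hm := G2_mx p J) (fun _ => D.fam.cu _) (zok_fl mx) Tg.mx_nil (by simp)
    (show 3 * 4 < 13 by omega) (fun i => ⟨_, D.bX_hg i⟩) (fun _ => (G2 p J).id_bot)
    (Nf := (D.Y K ρ).NF) (Fz := D.Fz K) (fun _ _ q => q) (fun _ _ _ q => q) nf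
    (fun k q => D.span_bX ▸ f0 k q) f1

end Crest.Agent.N255.Ma.Vd

end
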